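import Vale.Agent.P181.NR.Defs
import Vale.Agent.P181.TL.H410.T9E
import Vale.Agent.P181.DX.H924.Uni

set_option autoImplicit false

/-!
# P181, NR: `FewDiag` from `CoreR`, the theorem for all `a ≤ b`, the polylog theorem and the
theorem for `(a - 1) ^ 2 ≤ b`
-/

namespace Vale.Agent.P181.NR.H968

open Vale.Agent.P181.T4 (ex)
open Vale.Agent.P181.H280 (plethMult)
open Vale.Agent.P181.PL (dn dn_succ dn_zero exlt)

/-- A power of `1 + log a` is smaller than every power of `a`. -/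
theorem ev_rpow (M : ℝ) (p : ℕ) {ε : ℝ} (hε : 0 < ε) :
    ∃ a₀ : ℕ, ∀ a : ℕ, a₀ ≤ a → M * (1 + Real.log a) ^ p ≤ (a : ℝ) ^ ε := by
  obtain ⟨N, hN⟩ := exists_nat_ge (1 / ε)
  have hN0 : N ≠ 0 := by
    rintro rfl
    rw [Nat.cast_zero] at hN
    have : 0 < 1 / ε := by positivity
    linarith
  have hNε : 1 ≤ ε * N := by
    rw [div_le_iff₀ hε] at hN
    linarith
  obtain ⟨a₀, h⟩ := TL.H410.ev_log ((|M| + 1) ^ N) (p * N)
  refine ⟨max a₀ 1, fun a ha => ?_⟩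
  have ha1 : (1 : ℝ) ≤ a := by exact_mod_cast le_trans (le_max_right _ _) ha
  have h1 := h a (le_trans (le_max_left _ _) ha)
  have hL := TL.H410.one_le_L a
  have h2 : ((|M| + 1) * (1 + Real.log a) ^ p) ^ N ≤ ((a : ℝ) ^ ε) ^ N := by
    calc ((|M| + 1) * (1 + Real.log a) ^ p) ^ N = (|M| + 1) ^ N * (1 + Real.log a) ^ (p * N) := by
          rw [mul_pow, pow_mul]
      _ ≤ a := h1
      _ = (a : ℝ) ^ (1 : ℝ) := (Real.rpow_one _).symm
      _ ≤ (a : ℝ) ^ (ε * N) := Real.rpow_le_rpow_of_exponent_le ha1 hNε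
      _ = ((a : ℝ) ^ ε) ^ N := Real.rpow_mul_natCast (by linarith) ε N
  have h3 : (|M| + 1) * (1 + Real.log a) ^ p ≤ (a : ℝ) ^ ε :=
    le_of_pow_le_pow_left₀ hN0 (by positivity) h2
  refine le_trans ?_ h3
  exact mul_le_mul_of_nonneg_right (by linarith [le_abs_self M]) (by positivity)

lemma dn_one {k : ℕ} (lam : Fin (k + 3) → ℕ) : dn lam 1 = ∑ i : Fin (k + 2), lam i.succ := by
  have h0 := dn_zero lam
  have h1 : dn lam 0 = ex lam 0 + dn lam 1 := dn_succ lam 0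
  have h2 : ex lam 0 = lam 0 := exlt lam (by omega : 0 < k + 3)
  have h3 : ∑ i, lam i = lam 0 + ∑ i : Fin (k + 2), lam i.succ := Fin.sum_univ_succ lam
  omega

lemma dn_le {k : ℕ} {lam : Fin (k + 3) → ℕ} (h : Antitone lam) :
    dn lam 1 ≤ (k + 2) * lam 1 := by
  rw [dn_one]
  calc ∑ i : Fin (k + 2), lam i.succ ≤ ∑ _i : Fin (k + 2), lam 1 :=
        Finset.sum_le_sum fun i _ => h (by
          rw [Fin.le_def, Fin.val_succ]
          have : ((1 : Fin (k + 3)) : ℕ) = 1 := rfl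
          omega)
    _ = (k + 2) * lam 1 := by
        rw [Finset.sum_const, Finset.card_univ, Fintype.card_fin, smul_eq_mul]

lemma three_le {k : ℕ} {lam : Fin (k + 3) → ℕ} (h : Antitone lam) :
    3 * lam 2 ≤ ∑ i, lam i := by
  have h0 := dn_zero lam
  have h1 : dn lam 0 = ex lam 0 + dn lam 1 := dn_succ lam 0
  have h2 : dn lam 1 = ex lam 1 + dn lam 2 := dn_succ lam 1
  have h3 : dn lam 2 = ex lam 2 + dn lam 3 := dn_succ lam 2
  have e0 : ex lam 0 = lam 0 := exlt lam (by omega : 0 < k + 3)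
  have e1 : ex lam 1 = lam 1 := exlt lam (by omega : 1 < k + 3)
  have e2 : ex lam 2 = lam 2 := exlt lam (by omega : 2 < k + 3)
  have v2 : ((2 : Fin (k + 3)) : ℕ) = 2 := rfl
  have v1 : ((1 : Fin (k + 3)) : ℕ) = 1 := rfl
  have a1 : lam 2 ≤ lam 0 := h (by rw [Fin.le_def, v2]; exact Nat.zero_le _)
  have a2 : lam 2 ≤ lam 1 := h (by rw [Fin.le_def, v2, v1]; omega)
  omega

/-- **(N9)** -/
theorem fewDiag (hC : CoreR) (hX : DX.X924.UniX) (hP : TL.H410.PLH) (hB : T4.BigStmt) :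
    FewDiag := by
  intro k δ κ hδ hκ
  obtain ⟨ε, A, hε, hA, hcore⟩ := hC k δ κ hδ hκ
  obtain ⟨C1, c1, hC1, hX⟩ := hX
  obtain ⟨C2, c2, hP⟩ := hP
  obtain ⟨a1, h1⟩ := ev_rpow (C1 * (k + 2)) c1 hε
  obtain ⟨a2, h2⟩ := ev_rpow C2 c2 hε
  obtain ⟨N0, hN0⟩ : ∃ N0 : ℕ, N0 = max ⌈A⌉₊ (max a1 a2) := ⟨_, rfl⟩
  refine ⟨(N0 : ℝ) ^ 2 + 2, by positivity, ?_⟩
  intro a b lam hanti hsum hab h3
  have hN2 : (2 : ℝ) ≤ (N0 : ℝ) ^ 2 + 2 := by
    have : (0 : ℝ) ≤ (N0 : ℝ) ^ 2 := by positivity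
    linarith
  have hCp : (0 : ℝ) < (N0 : ℝ) ^ 2 + 2 := by linarith
  rcases Nat.eq_zero_or_pos a with ha | ha
  · subst ha
    exact hB 0 b (k + 3) lam (by simp)
  have ha1 : (1 : ℝ) ≤ a := by exact_mod_cast ha
  have ha0 : (0 : ℝ) < a := by linarith
  have hab' : (a : ℝ) ≤ b := by nlinarith
  have hab'' : a ≤ b := by exact_mod_cast hab'
  have hpow : (a : ℝ) ≤ (a : ℝ) ^ (1 + κ) := by
    calc (a : ℝ) = (a : ℝ) ^ (1 : ℝ) := (Real.rpow_one _).symm
      _ ≤ _ := Real.rpow_le_rpow_of_exponent_le ha1 (by linarith)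
  have hl2 : ((N0 : ℝ) ^ 2 + 2) * a ≤ lam 2 :=
    le_trans (mul_le_mul_of_nonneg_left hpow hCp.le) h3
  rcases Nat.lt_or_ge N0 a with hNa | hNa
  swap
  · apply hB
    have e1 : (3 * lam 2 : ℕ) ≤ a * b := by
      rw [← hsum]
      exact three_le hanti
    have e2 : (3 : ℝ) * lam 2 ≤ a * b := by exact_mod_cast e1
    have e3 : ((N0 : ℝ) ^ 2 + 2) * a ≤ b * a := by nlinarith
    have e4 : (N0 : ℝ) ^ 2 + 2 ≤ b := le_of_mul_le_mul_right e3 ha0
    have e5 : N0 ^ 2 + 2 ≤ b := by exact_mod_cast e4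
    have e6 : (a - 1) ^ 2 ≤ N0 ^ 2 := Nat.pow_le_pow_left (by omega) 2
    omega
  have hAa : A ≤ a := by
    have e1 : A ≤ ⌈A⌉₊ := Nat.le_ceil A
    have e2 : ⌈A⌉₊ ≤ N0 := by rw [hN0]; exact le_max_left _ _
    have e3 : ((⌈A⌉₊ : ℕ) : ℝ) ≤ a := by exact_mod_cast e2.trans hNa.le
    linarith
  have hN1 : a1 ≤ N0 := by
    rw [hN0]
    exact le_trans (le_max_left _ _) (le_max_right _ _)
  have hN2' : a2 ≤ N0 := by
    rw [hN0]
    exact le_trans (le_max_right _ _) (le_max_right _ _)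
  have g1 := h1 a (hN1.trans hNa.le)
  have g2 := h2 a (hN2'.trans hNa.le)
  rcases le_or_gt ((a : ℝ) ^ (1 + ε)) b with hb | hb
  · apply hP
    refine le_trans ?_ hb
    rw [Real.rpow_add ha0, Real.rpow_one]
    calc C2 * a * (1 + Real.log a) ^ c2 = a * (C2 * (1 + Real.log a) ^ c2) := by ring
      _ ≤ a * (a : ℝ) ^ ε := mul_le_mul_of_nonneg_left g2 ha0.le
  rcases le_or_gt ((a : ℝ) ^ (2 - ε)) (lam 1) with hl | hl
  · refine hcore a b lam hanti hsum hAa hab hb.le hl ?_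
    refine le_trans ?_ h3
    exact le_mul_of_one_le_left (by positivity) (by linarith)
  · apply hX a b hab''
    right; right; right
    have hw : C1 * (1 + Real.log a) ^ c1 * (dn lam 1 : ℝ) ≤ (a : ℝ) ^ 2 := by
      have hL := TL.H410.one_le_L a
      have e1 : (dn lam 1 : ℝ) ≤ (k + 2) * lam 1 := by exact_mod_cast dn_le hanti
      have e2 : (dn lam 1 : ℝ) ≤ (k + 2) * (a : ℝ) ^ (2 - ε) :=
        e1.trans (mul_le_mul_of_nonneg_left hl.le (by positivity))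
      calc C1 * (1 + Real.log a) ^ c1 * (dn lam 1 : ℝ)
          ≤ C1 * (1 + Real.log a) ^ c1 * ((k + 2) * (a : ℝ) ^ (2 - ε)) :=
            mul_le_mul_of_nonneg_left e2 (by positivity)
        _ = (C1 * (k + 2) * (1 + Real.log a) ^ c1) * (a : ℝ) ^ (2 - ε) := by ring
        _ ≤ (a : ℝ) ^ ε * (a : ℝ) ^ (2 - ε) :=
            mul_le_mul_of_nonneg_right g1 (by positivity)
        _ = (a : ℝ) ^ 2 := by
            rw [← Real.rpow_add ha0, ← Real.rpow_natCast]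
            congr 1
            push_cast
            ring
    have d1 : dn lam 1 = ex lam 1 + dn lam 2 := dn_succ lam 1
    have d2 : dn lam 2 = ex lam 2 + dn lam 3 := dn_succ lam 2
    have e1 : ex lam 1 = lam 1 := exlt lam (by omega : 1 < k + 3)
    have e2 : ex lam 2 = lam 2 := exlt lam (by omega : 2 < k + 3)
    have v2 : ((2 : Fin (k + 3)) : ℕ) = 2 := rfl
    have v1 : ((1 : Fin (k + 3)) : ℕ) = 1 := rfl
    have m1 : lam 2 ≤ lam 1 := hanti (by rw [Fin.le_def, v2, v1]; omega)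
    have hl2' : 2 * (a : ℝ) ≤ lam 2 :=
      le_trans (mul_le_mul_of_nonneg_right hN2 ha0.le) hl2
    have m2 : (lam 2 : ℝ) ≤ lam 1 := by exact_mod_cast m1
    refine ⟨hw.trans (pow_le_pow_left₀ ha0.le hab' 2), hw.trans (pow_le_pow_left₀ ha0.le ?_ 2),
      hw.trans (pow_le_pow_left₀ ha0.le ?_ 2)⟩
    · have e3 : (lam 2 : ℝ) ≤ dn lam 2 := by
        rw [d2, e2]
        push_cast
        have : (0 : ℝ) ≤ (dn lam 3 : ℝ) := Nat.cast_nonneg _
        linarith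
      linarith
    · have e3 : (dn lam 1 : ℝ) = lam 1 + lam 2 + dn lam 3 := by
        rw [d1, d2, e1, e2]
        push_cast
        ring
      have : (0 : ℝ) ≤ (dn lam 3 : ℝ) := Nat.cast_nonneg _
      rw [e3, e2]
      linarith

end Vale.Agent.P181.NR.H968
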